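import Vale.Agent.P141.H922.TieSum

/-!
# P141, line (A), dead part of the Abel line with a moving slot

A predicate `aff k i0 i1 i3` on the boxes (`x₀`-cell, `x₁`-cell, `x₃`-cell of scale `k`), packed in
`(x₁, x₃)` at every point `x₀`; `f x1 x3 k i ≥ 0` a submartingale on the `x₀`-tree at fixed
`(x₁, x₃)` (the square of a moving slot).

* `sub_avg`: `2 ^ k f k i ≤ ∑ f 0`;
* `count_sq`: the second moment of the number of affected boxes through a point, weight `w`;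
* `dead_sq`: the sum of `f` over the affected boxes, weights `Zw k` of bounded `x₀`-line averages;
* `dead_le`: Cauchy-Schwarz with a second factor of bounded cubes.
-/

namespace Vale.Agent.P141.H265

open Finset
open Vale.Agent.P141.PL (iv ix mem_iv card_iv ix_ix)
open Vale.Agent.P141.H922 (iv_iv)

noncomputable section

open scoped Classical

/-- the two halves of a cell -/
theorem iv_halves (k : ℕ) (m : ℤ) (f : ℤ → ℝ) :
    ∑ x ∈ iv (k + 1) m, f x = ∑ x ∈ iv k (2 * m), f x + ∑ x ∈ iv k (2 * m + 1), f x := by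
  have h := iv_iv (k := k) (K := k + 1) (Nat.le_succ k) m f
  rw [← h]
  have e : iv (k + 1 - k) m = {2 * m, 2 * m + 1} := by
    ext x
    rw [mem_iv, mem_insert, mem_singleton]
    have : k + 1 - k = 1 := by omega
    rw [this]
    unfold ix
    constructor
    · intro h
      omega
    · intro h
      omega
  rw [e, sum_pair (by omega)]

/-- a submartingale is at most the mean of its end -/
theorem sub_avg {N : ℕ} {f : ℕ → ℤ → ℝ}
    (h : ∀ k < N, ∀ i, f (k + 1) i ≤ (f k (2 * i) + f k (2 * i + 1)) / 2) :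
    ∀ k ≤ N, ∀ i, 2 ^ k * f k i ≤ ∑ x ∈ iv k i, f 0 x := by
  intro k
  induction k with
  | zero =>
    intro _ i
    have e : iv 0 i = {i} := by
      ext x
      rw [mem_iv, mem_singleton]
      unfold ix
      simp
    rw [e, sum_singleton]
    simp
  | succ k ih =>
    intro hk i
    have h1 := ih (by omega) (2 * i)
    have h2 := ih (by omega) (2 * i + 1)
    have h3 := h k (by omega) i
    rw [iv_halves, pow_succ]
    have hp : (0 : ℝ) ≤ 2 ^ k := by positivity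
    have h4 := mul_le_mul_of_nonneg_left h3 hp
    linarith

/-- sums over points in two variables as sums over cells of scale `k` -/
theorem cells2 {k N : ℕ} (hk : k ≤ N) (M1 M3 : ℤ) (f : ℤ → ℤ → ℝ) :
    ∑ x1 ∈ iv N M1, ∑ x3 ∈ iv N M3, f x1 x3 =
      ∑ i1 ∈ iv (N - k) M1, ∑ i3 ∈ iv (N - k) M3, ∑ x1 ∈ iv k i1, ∑ x3 ∈ iv k i3, f x1 x3 := by
  rw [← iv_iv hk M1]
  refine sum_congr rfl fun i1 _ => ?_
  have e : ∀ x1 ∈ iv k i1, ∑ x3 ∈ iv N M3, f x1 x3 =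
      ∑ i3 ∈ iv (N - k) M3, ∑ x3 ∈ iv k i3, f x1 x3 := fun x1 _ => (iv_iv hk M3 _).symm
  rw [sum_congr rfl e, sum_comm]

/-- square of a sum of nonnegative numbers -/
theorem sq_le_tri (n : ℕ) (a : ℕ → ℝ) :
    (∑ k ∈ range n, a k) ^ 2 ≤ 2 * ∑ k ∈ range n, ∑ j ∈ range (k + 1), a k * a j := by
  induction n with
  | zero => simp
  | succ n ih =>
    rw [sum_range_succ, sum_range_succ (fun k => ∑ j ∈ range (k + 1), a k * a j),
      sum_range_succ (fun j => a n * a j)]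
    have h : (∑ k ∈ range n, a k + a n) ^ 2 = (∑ k ∈ range n, a k) ^ 2 +
        2 * (∑ k ∈ range n, a n * a k) + a n * a n := by
      rw [← mul_sum]
      ring
    rw [h]
    have h2 : 0 ≤ a n * a n := mul_self_nonneg _
    linarith

/-- the indicator of the affected box at a point -/
def ia (aff : ℕ → ℤ → ℤ → ℤ → Prop) (k : ℕ) (x0 x1 x3 : ℤ) : ℝ :=
  if aff k (ix k x0) (ix k x1) (ix k x3) then 1 else 0

theorem ia_nonneg (aff : ℕ → ℤ → ℤ → ℤ → Prop) (k : ℕ) (x0 x1 x3 : ℤ) : 0 ≤ ia aff k x0 x1 x3 := by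
  unfold ia
  split_ifs <;> norm_num

/-- packing in `(x₁, x₃)` below every box of the root, at every point `x₀` -/
def PackA (N : ℕ) (M0 M1 M3 : ℤ) (aff : ℕ → ℤ → ℤ → ℤ → Prop) (P : ℝ) : Prop :=
  ∀ x0 ∈ iv N M0, ∀ k ≤ N, ∀ i1 ∈ iv (N - k) M1, ∀ i3 ∈ iv (N - k) M3,
    ∑ j ∈ range (k + 1), ∑ j1 ∈ iv (k - j) i1, ∑ j3 ∈ iv (k - j) i3,
      (if aff j (ix j x0) j1 j3 then (4 : ℝ) ^ j else 0) ≤ P * 4 ^ k

/-- the mass of the weight on the affected boxes -/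
def MassA (N : ℕ) (M0 M1 M3 : ℤ) (aff : ℕ → ℤ → ℤ → ℤ → Prop) (w : ℤ → ℤ → ℝ) (W : ℝ) : Prop :=
  ∀ k ≤ N, ∀ i0 ∈ iv (N - k) M0, ∀ i1 ∈ iv (N - k) M1, ∀ i3 ∈ iv (N - k) M3, aff k i0 i1 i3 →
    ∑ x1 ∈ iv k i1, ∑ x3 ∈ iv k i3, w x1 x3 ≤ W * 4 ^ k

variable {N : ℕ} {M0 M1 M3 : ℤ} {aff : ℕ → ℤ → ℤ → ℤ → Prop} {P W : ℝ} {w : ℤ → ℤ → ℝ}

/-- two scales at one point `x₀` -/
theorem two_scales (hm : MassA N M0 M1 M3 aff w W) {x0 : ℤ} (hx0 : x0 ∈ iv N M0) {k j : ℕ}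
    (hk : k ≤ N) (hj : j ≤ k) :
    ∑ x1 ∈ iv N M1, ∑ x3 ∈ iv N M3, w x1 x3 * (ia aff k x0 x1 x3 * ia aff j x0 x1 x3) ≤
      ∑ i1 ∈ iv (N - k) M1, ∑ i3 ∈ iv (N - k) M3, (if aff k (ix k x0) i1 i3 then
        W * ∑ j1 ∈ iv (k - j) i1, ∑ j3 ∈ iv (k - j) i3,
          (if aff j (ix j x0) j1 j3 then (4 : ℝ) ^ j else 0) else 0) := by
  rw [cells2 hk]
  refine sum_le_sum fun i1 hi1 => sum_le_sum fun i3 hi3 => ?_
  by_cases h : aff k (ix k x0) i1 i3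
  · rw [if_pos h, cells2 hj, mul_sum]
    refine sum_le_sum fun j1 hj1 => ?_
    rw [mul_sum]
    refine sum_le_sum fun j3 hj3 => ?_
    by_cases h2 : aff j (ix j x0) j1 j3
    · rw [if_pos h2]
      have h0 : ix j x0 ∈ iv (N - j) M0 := by
        rw [mem_iv, ix_ix, Nat.add_sub_cancel' (hj.trans hk)]
        exact mem_iv.1 hx0
      have m1 : j1 ∈ iv (N - j) M1 := by
        rw [mem_iv] at hi1 hj1 ⊢
        rw [← hi1, ← hj1, ix_ix]
        congr 1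
        omega
      have m3 : j3 ∈ iv (N - j) M3 := by
        rw [mem_iv] at hi3 hj3 ⊢
        rw [← hi3, ← hj3, ix_ix]
        congr 1
        omega
      refine le_trans (le_of_eq ?_) (hm j (hj.trans hk) _ h0 j1 m1 j3 m3 h2)
      refine sum_congr rfl fun x1 hx1 => sum_congr rfl fun x3 hx3 => ?_
      have e1 : ix j x1 = j1 := mem_iv.1 hx1
      have e3 : ix j x3 = j3 := mem_iv.1 hx3
      have f1 : ix k x1 = i1 := by
        have := mem_iv.1 hj1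
        rw [← e1, ix_ix, Nat.add_sub_cancel' hj] at this
        exact this
      have f3 : ix k x3 = i3 := by
        have := mem_iv.1 hj3
        rw [← e3, ix_ix, Nat.add_sub_cancel' hj] at this
        exact this
      unfold ia
      rw [e1, e3, f1, f3, if_pos h, if_pos h2]
      ring
    · rw [if_neg h2, mul_zero]
      refine le_of_eq (sum_eq_zero fun x1 hx1 => sum_eq_zero fun x3 hx3 => ?_)
      have e1 : ix j x1 = j1 := mem_iv.1 hx1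
      have e3 : ix j x3 = j3 := mem_iv.1 hx3
      unfold ia
      rw [e1, e3, if_neg h2]
      ring
  · rw [if_neg h]
    refine le_of_eq (sum_eq_zero fun x1 hx1 => sum_eq_zero fun x3 hx3 => ?_)
    have e1 : ix k x1 = i1 := mem_iv.1 hx1
    have e3 : ix k x3 = i3 := mem_iv.1 hx3
    unfold ia
    rw [e1, e3, if_neg h]
    ring

/-- the number of affected boxes through a point -/
def cn (aff : ℕ → ℤ → ℤ → ℤ → Prop) (N : ℕ) (x0 x1 x3 : ℤ) : ℝ :=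
  ∑ k ∈ range (N + 1), ia aff k x0 x1 x3

theorem cn_nonneg (N : ℕ) (x0 x1 x3 : ℤ) : 0 ≤ cn aff N x0 x1 x3 :=
  sum_nonneg fun k _ => ia_nonneg aff k x0 x1 x3

/-- **The second moment of the number of affected boxes**, at one point `x₀`. -/
theorem count_sq (hp : PackA N M0 M1 M3 aff P) (hm : MassA N M0 M1 M3 aff w W) (hW : 0 ≤ W)
    (hP : 0 ≤ P) (hw : ∀ x1 x3, 0 ≤ w x1 x3) {x0 : ℤ} (hx0 : x0 ∈ iv N M0) :
    ∑ x1 ∈ iv N M1, ∑ x3 ∈ iv N M3, w x1 x3 * cn aff N x0 x1 x3 ^ 2 ≤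
      2 * (W * P ^ 2 * 4 ^ N) := by
  have h1 : ∑ x1 ∈ iv N M1, ∑ x3 ∈ iv N M3, w x1 x3 * cn aff N x0 x1 x3 ^ 2 ≤
      2 * ∑ k ∈ range (N + 1), ∑ j ∈ range (k + 1), ∑ x1 ∈ iv N M1, ∑ x3 ∈ iv N M3,
        w x1 x3 * (ia aff k x0 x1 x3 * ia aff j x0 x1 x3) := by
    have e : ∑ k ∈ range (N + 1), ∑ j ∈ range (k + 1), ∑ x1 ∈ iv N M1, ∑ x3 ∈ iv N M3,
        w x1 x3 * (ia aff k x0 x1 x3 * ia aff j x0 x1 x3) =
        ∑ x1 ∈ iv N M1, ∑ x3 ∈ iv N M3, w x1 x3 * ∑ k ∈ range (N + 1), ∑ j ∈ range (k + 1),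
          ia aff k x0 x1 x3 * ia aff j x0 x1 x3 := by
      simp only [mul_sum]
      rw [sum_congr rfl fun k _ => sum_comm, sum_comm]
      refine sum_congr rfl fun x1 _ => ?_
      rw [sum_congr rfl fun k _ => sum_comm.trans (sum_congr rfl fun _ _ => rfl), sum_comm]
    rw [e, mul_sum]
    refine sum_le_sum fun x1 _ => ?_
    rw [mul_sum]
    refine sum_le_sum fun x3 _ => ?_
    have := mul_le_mul_of_nonneg_left
      (sq_le_tri (N + 1) fun k => ia aff k x0 x1 x3) (hw x1 x3)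
    unfold cn
    linarith
  refine h1.trans (mul_le_mul_of_nonneg_left ?_ (by norm_num))
  have h2 : ∀ k ∈ range (N + 1), ∑ j ∈ range (k + 1), ∑ x1 ∈ iv N M1, ∑ x3 ∈ iv N M3,
      w x1 x3 * (ia aff k x0 x1 x3 * ia aff j x0 x1 x3) ≤
      (W * P) * ∑ i1 ∈ iv (N - k) M1, ∑ i3 ∈ iv (N - k) M3,
        (if aff k (ix k x0) i1 i3 then (4 : ℝ) ^ k else 0) := by
    intro k hk
    have hk' : k ≤ N := by
      rw [mem_range] at hk
      omega
    have h3 := sum_le_sum fun j (hj : j ∈ range (k + 1)) =>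
      two_scales (M1 := M1) (M3 := M3) hm hx0 hk' (j := j) (by rw [mem_range] at hj; omega)
    refine h3.trans ?_
    rw [sum_comm, mul_sum]
    refine sum_le_sum fun i1 hi1 => ?_
    rw [sum_comm, mul_sum]
    refine sum_le_sum fun i3 hi3 => ?_
    by_cases h : aff k (ix k x0) i1 i3
    · simp only [if_pos h]
      rw [← mul_sum]
      have := mul_le_mul_of_nonneg_left (hp x0 hx0 k hk' i1 hi1 i3 hi3) hW
      linarith
    · simp only [if_neg h]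
      simp
  refine (sum_le_sum h2).trans ?_
  rw [← mul_sum]
  have h4 := hp x0 hx0 N le_rfl M1 (by rw [Nat.sub_self, mem_iv]; unfold ix; simp) M3
    (by rw [Nat.sub_self, mem_iv]; unfold ix; simp)
  have h5 := mul_le_mul_of_nonneg_left h4 (mul_nonneg hW hP)
  refine h5.trans (le_of_eq ?_)
  ring

/-- one scale: the weight is averaged in `x₀`, the slot is at most the mean of its end -/
theorem one_scale {f : ℕ → ℤ → ℝ} (hf0 : ∀ k i, 0 ≤ f k i)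
    (hf : ∀ k < N, ∀ i, f (k + 1) i ≤ (f k (2 * i) + f k (2 * i + 1)) / 2) {Z : ℤ → ℝ} {ez : ℝ}
    (hez : 0 ≤ ez) {k : ℕ} (hk : k ≤ N)
    (hZ : ∀ i, ∑ x0 ∈ iv k i, Z x0 ≤ ez * 2 ^ k) (x1 x3 : ℤ) :
    ∑ x0 ∈ iv N M0, ia aff k x0 x1 x3 * (Z x0 * f k (ix k x0)) ≤
      ez * ∑ x0 ∈ iv N M0, ia aff k x0 x1 x3 * f 0 x0 := by
  rw [← iv_iv hk M0, ← iv_iv hk M0, mul_sum]
  refine sum_le_sum fun i _ => ?_
  by_cases h : aff k i (ix k x1) (ix k x3)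
  · have e1 : ∑ x0 ∈ iv k i, ia aff k x0 x1 x3 * (Z x0 * f k (ix k x0)) =
        (∑ x0 ∈ iv k i, Z x0) * f k i := by
      rw [sum_mul]
      refine sum_congr rfl fun x0 hx0 => ?_
      rw [mem_iv] at hx0
      unfold ia
      rw [hx0, if_pos h, one_mul]
    have e2 : ∑ x0 ∈ iv k i, ia aff k x0 x1 x3 * f 0 x0 = ∑ x0 ∈ iv k i, f 0 x0 := by
      refine sum_congr rfl fun x0 hx0 => ?_
      rw [mem_iv] at hx0
      unfold ia
      rw [hx0, if_pos h, one_mul]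
    rw [e1, e2]
    have h1 := mul_le_mul_of_nonneg_right (hZ i) (hf0 k i)
    have h2 := mul_le_mul_of_nonneg_left (sub_avg hf k hk i) hez
    calc (∑ x0 ∈ iv k i, Z x0) * f k i ≤ ez * 2 ^ k * f k i := h1
      _ = ez * (2 ^ k * f k i) := by ring
      _ ≤ ez * ∑ x ∈ iv k i, f 0 x := h2
  · have e1 : ∀ g : ℤ → ℝ, ∑ x0 ∈ iv k i, ia aff k x0 x1 x3 * g x0 = 0 := by
      intro g
      refine sum_eq_zero fun x0 hx0 => ?_
      rw [mem_iv] at hx0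
      unfold ia
      rw [hx0, if_neg h, zero_mul]
    rw [e1, e1, mul_zero]

/-- **The slot on the affected boxes.** `f x1 x3` a submartingale of the `x₀`-tree with end at most
`Kc ^ 2 w` and total energy at most `E`; weights of `x₀`-line averages at most `ez`. -/
theorem dead_sq {f : ℤ → ℤ → ℕ → ℤ → ℝ} (hf0 : ∀ x1 x3 k i, 0 ≤ f x1 x3 k i)
    (hf : ∀ x1 x3, ∀ k < N, ∀ i, f x1 x3 (k + 1) i ≤
      (f x1 x3 k (2 * i) + f x1 x3 k (2 * i + 1)) / 2)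
    {Z : ℕ → ℤ → ℤ → ℤ → ℝ} {ez Kc E : ℝ} (hez : 0 ≤ ez) (hKc : 0 ≤ Kc)
    (hZ : ∀ k ≤ N, ∀ i x1 x3, ∑ x0 ∈ iv k i, Z k x0 x1 x3 ≤ ez * 2 ^ k)
    (hw : ∀ x1 x3, 0 ≤ w x1 x3)
    (hcap : ∀ x1 ∈ iv N M1, ∀ x3 ∈ iv N M3, ∀ x0 ∈ iv N M0, f x1 x3 0 x0 ≤ Kc ^ 2 * w x1 x3)
    (hE : ∑ x0 ∈ iv N M0, ∑ x1 ∈ iv N M1, ∑ x3 ∈ iv N M3, f x1 x3 0 x0 ≤ E)
    (hp : PackA N M0 M1 M3 aff P) (hm : MassA N M0 M1 M3 aff w W) (hW : 0 ≤ W) (hP : 0 ≤ P) :
    ∑ x0 ∈ iv N M0, ∑ k ∈ range (N + 1), ∑ x1 ∈ iv N M1, ∑ x3 ∈ iv N M3,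
      ia aff k x0 x1 x3 * (Z k x0 x1 x3 * f x1 x3 k (ix k x0)) ≤
    ez * (Kc * (√(2 * W * P ^ 2 * 8 ^ N) * √E)) := by
  have s1 : ∑ x0 ∈ iv N M0, ∑ k ∈ range (N + 1), ∑ x1 ∈ iv N M1, ∑ x3 ∈ iv N M3,
      ia aff k x0 x1 x3 * (Z k x0 x1 x3 * f x1 x3 k (ix k x0)) ≤
      ez * ∑ x0 ∈ iv N M0, ∑ x1 ∈ iv N M1, ∑ x3 ∈ iv N M3,
        cn aff N x0 x1 x3 * f x1 x3 0 x0 := by
    have e1 : ∑ x0 ∈ iv N M0, ∑ k ∈ range (N + 1), ∑ x1 ∈ iv N M1, ∑ x3 ∈ iv N M3,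
        ia aff k x0 x1 x3 * (Z k x0 x1 x3 * f x1 x3 k (ix k x0)) =
        ∑ k ∈ range (N + 1), ∑ x1 ∈ iv N M1, ∑ x3 ∈ iv N M3, ∑ x0 ∈ iv N M0,
          ia aff k x0 x1 x3 * (Z k x0 x1 x3 * f x1 x3 k (ix k x0)) := by
      rw [sum_comm]
      refine sum_congr rfl fun k _ => ?_
      rw [sum_comm]
      exact sum_congr rfl fun x1 _ => sum_comm
    have e2 : ∑ x0 ∈ iv N M0, ∑ x1 ∈ iv N M1, ∑ x3 ∈ iv N M3,
        cn aff N x0 x1 x3 * f x1 x3 0 x0 =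
        ∑ k ∈ range (N + 1), ∑ x1 ∈ iv N M1, ∑ x3 ∈ iv N M3, ∑ x0 ∈ iv N M0,
          ia aff k x0 x1 x3 * f x1 x3 0 x0 := by
      unfold cn
      simp only [sum_mul]
      rw [sum_congr rfl fun x0 _ => sum_congr rfl fun x1 _ => sum_comm,
        sum_congr rfl fun x0 _ => sum_comm, sum_comm]
      refine sum_congr rfl fun k _ => ?_
      rw [sum_comm]
      exact sum_congr rfl fun x1 _ => sum_comm
    rw [e1, e2, mul_sum]
    refine sum_le_sum fun k hk => ?_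
    rw [mul_sum]
    refine sum_le_sum fun x1 _ => ?_
    rw [mul_sum]
    refine sum_le_sum fun x3 _ => ?_
    have hk' : k ≤ N := by
      rw [mem_range] at hk
      omega
    exact one_scale (hf0 x1 x3) (hf x1 x3) hez hk' (fun i => hZ k hk' i x1 x3) x1 x3
  refine s1.trans (mul_le_mul_of_nonneg_left ?_ hez)
  -- Cauchy-Schwarz
  have s2 : ∑ x0 ∈ iv N M0, ∑ x1 ∈ iv N M1, ∑ x3 ∈ iv N M3, cn aff N x0 x1 x3 * f x1 x3 0 x0 ≤
      Kc * ∑ q ∈ iv N M0 ×ˢ (iv N M1 ×ˢ iv N M3),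
        (√(w q.2.1 q.2.2) * cn aff N q.1 q.2.1 q.2.2) * √(f q.2.1 q.2.2 0 q.1) := by
    rw [mul_sum, sum_product]
    refine sum_le_sum fun x0 hx0 => ?_
    rw [sum_product]
    refine sum_le_sum fun x1 hx1 => sum_le_sum fun x3 hx3 => ?_
    have h1 := hcap x1 hx1 x3 hx3 x0 hx0
    have h2 : √(f x1 x3 0 x0) ≤ Kc * √(w x1 x3) := by
      rw [← Real.sqrt_sq hKc, ← Real.sqrt_mul (sq_nonneg _)]
      exact Real.sqrt_le_sqrt h1
    have h3 : f x1 x3 0 x0 = √(f x1 x3 0 x0) * √(f x1 x3 0 x0) :=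
      (Real.mul_self_sqrt (hf0 x1 x3 0 x0)).symm
    have h4 : f x1 x3 0 x0 ≤ Kc * √(w x1 x3) * √(f x1 x3 0 x0) := by
      calc f x1 x3 0 x0 = √(f x1 x3 0 x0) * √(f x1 x3 0 x0) := h3
        _ ≤ _ := mul_le_mul_of_nonneg_right h2 (Real.sqrt_nonneg _)
    have h5 := mul_le_mul_of_nonneg_left h4 (cn_nonneg (aff := aff) N x0 x1 x3)
    refine h5.trans (le_of_eq ?_)
    ring
  refine s2.trans (mul_le_mul_of_nonneg_left ?_ hKc)
  have cs := Real.sum_mul_le_sqrt_mul_sqrt (iv N M0 ×ˢ (iv N M1 ×ˢ iv N M3))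
    (fun q => √(w q.2.1 q.2.2) * cn aff N q.1 q.2.1 q.2.2) (fun q => √(f q.2.1 q.2.2 0 q.1))
  refine cs.trans (mul_le_mul (Real.sqrt_le_sqrt ?_) (Real.sqrt_le_sqrt ?_) (Real.sqrt_nonneg _)
    (Real.sqrt_nonneg _))
  · rw [sum_product]
    have h6 : ∀ x0 ∈ iv N M0, ∑ y ∈ iv N M1 ×ˢ iv N M3,
        (√(w y.1 y.2) * cn aff N x0 y.1 y.2) ^ 2 ≤ 2 * (W * P ^ 2 * 4 ^ N) := by
      intro x0 hx0
      refine le_trans (le_of_eq ?_) (count_sq hp hm hW hP hw hx0)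
      rw [sum_product]
      refine sum_congr rfl fun x1 _ => sum_congr rfl fun x3 _ => ?_
      rw [mul_pow, Real.sq_sqrt (hw x1 x3)]
    refine (sum_le_sum h6).trans (le_of_eq ?_)
    rw [sum_const, card_iv, nsmul_eq_mul]
    have : (8 : ℝ) ^ N = 2 ^ N * 4 ^ N := by
      rw [← mul_pow]
      norm_num
    rw [this]
    push_cast
    ring
  · refine le_trans (le_of_eq ?_) hE
    rw [sum_product]
    refine sum_congr rfl fun x0 _ => ?_
    rw [sum_product]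
    refine sum_congr rfl fun x1 _ => sum_congr rfl fun x3 _ => ?_
    exact Real.sq_sqrt (hf0 x1 x3 0 x0)

end

end Vale.Agent.P141.H265
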