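import Vale.Agent.P141.H876.WinS

/-!
# P141, line (A): the moving slot at the affected times

Letters of `H841.Lay`, `H876.WinS`. Fixed `x₁`, fixed `y`, fixed vector `w`; `a k q` : the cell `q`
of `x₀` of the scale `k` is affected (any predicate).

* `cnt` : the number of the affected scales at and above `k`;
* `tree_cnt` : a martingale of squares, summed over the affected cells with at most `lam` affected
  scales above;
* `stop_num` : the sum of the squares of the slot over the affected times with `cnt ≤ lam`.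
-/

namespace Vale.Agent.P141.H265

open Finset Matrix
open Vale.Agent.P141.PL (iv ix hs mem_iv ix_ix card_iv)
open Vale.Agent.P141.H922 (ck iv_iv iv_succ_sum)
open Vale.Agent.P141.H43 (nsq nsq_nonneg)
open Vale.Agent.P141.H841 (Nn Rm Lm)
open Vale.Agent.P141.H876 (En wt_Nn)

noncomputable section

open scoped Classical

/-- number of the affected scales `l` with `k ≤ l < n` above the cell `q` of the scale `k` -/
def cnt (a : ℕ → ℤ → Prop) (n k : ℕ) (q : ℤ) : ℕ := ((Ico k n).filter fun l => a l (ix (l - k) q)).card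

theorem cnt_self (a : ℕ → ℤ → Prop) (n : ℕ) (q : ℤ) : cnt a n n q = 0 := by
  unfold cnt
  rw [Ico_self, filter_empty, card_empty]

/-- one more scale at the top -/
theorem cnt_top (a : ℕ → ℤ → Prop) {n k : ℕ} (hk : k ≤ n) (q : ℤ) :
    cnt a (n + 1) k q = cnt a n k q + if a n (ix (n - k) q) then 1 else 0 := by
  unfold cnt
  have e : Ico k (n + 1) = insert n (Ico k n) := by
    ext l
    rw [mem_insert, mem_Ico, mem_Ico]
    omega
  rw [e, filter_insert]
  split_ifs with h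
  · rw [card_insert_of_notMem (by simp)]
  · rfl

/-- **Squares of a martingale over the affected cells.** -/
theorem tree_cnt (a : ℕ → ℤ → Prop) (f γ : ℕ → ℤ → ℝ) (hf : ∀ k q, 0 ≤ f k q)
    (hγ : ∀ k q, 0 ≤ γ k q) (n : ℕ)
    (hrec : ∀ K < n, ∀ q, f K (2 * q) + f K (2 * q + 1) = 2 * f (K + 1) q + 2 * γ (K + 1) q) :
    ∀ K ≤ n, ∀ (q : ℤ) (lam : ℕ), ∑ k ∈ range K, ∑ p ∈ iv (K - k) q,
      (if a k p ∧ cnt a K k p ≤ lam then (2 : ℝ) ^ k * f k p else 0) ≤
      lam * ((2 : ℝ) ^ K * f K q +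
        ∑ i ∈ range K, (2 : ℝ) ^ (i + 1) * ∑ p ∈ iv (K - (i + 1)) q, γ (i + 1) p) := by
  intro K
  induction K with
  | zero =>
    intro _ q lam
    rw [range_zero, sum_empty, sum_empty]
    have := hf 0 q
    positivity
  | succ K ih =>
    intro hK q lam
    have hK' : K ≤ n := by omega
    -- the energy of the children
    set E : ℤ → ℝ := fun c => ∑ i ∈ range K, (2 : ℝ) ^ (i + 1) *
      ∑ p ∈ iv (K - (i + 1)) c, γ (i + 1) p with hE
    have hE0 : ∀ c, 0 ≤ E c := fun c => sum_nonneg fun i _ =>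
      mul_nonneg (by positivity) (sum_nonneg fun p _ => hγ _ _)
    -- one child
    have one : ∀ c : ℤ, ∑ k ∈ range (K + 1), ∑ p ∈ iv (K - k) c,
        (if a k p ∧ cnt a (K + 1) k p ≤ lam then (2 : ℝ) ^ k * f k p else 0) ≤
        lam * ((2 : ℝ) ^ K * f K c + E c) := by
      intro c
      have h0 : 0 ≤ (2 : ℝ) ^ K * f K c + E c := by
        have := hf K c
        have := hE0 c
        positivity
      rw [sum_range_succ]
      have top : ∑ p ∈ iv (K - K) c,
          (if a K p ∧ cnt a (K + 1) K p ≤ lam then (2 : ℝ) ^ K * f K p else 0) =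
          if a K c ∧ 1 ≤ lam then (2 : ℝ) ^ K * f K c else 0 := by
        have e : iv (K - K) c = {c} := by
          rw [Nat.sub_self]
          ext x
          rw [mem_iv, mem_singleton, PL.ix_zero]
        rw [e, sum_singleton, cnt_top a le_rfl, cnt_self, Nat.sub_self, PL.ix_zero, zero_add]
        by_cases h : a K c
        · rw [if_pos h]
        · rw [if_neg fun h' => h h'.1, if_neg fun h' => h h'.1]
      rw [top]
      have cc : ∀ k ∈ range K, ∀ p ∈ iv (K - k) c,
          cnt a (K + 1) k p = cnt a K k p + if a K c then 1 else 0 := by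
        intro k hk p hp
        rw [mem_range] at hk
        rw [mem_iv] at hp
        rw [cnt_top a hk.le, hp]
      by_cases hc : a K c
      · rcases Nat.eq_zero_or_pos lam with hl | hl
        · subst hl
          have z : ∑ k ∈ range K, ∑ p ∈ iv (K - k) c,
              (if a k p ∧ cnt a (K + 1) k p ≤ 0 then (2 : ℝ) ^ k * f k p else 0) = 0 := by
            refine sum_eq_zero fun k hk => sum_eq_zero fun p hp => ?_
            rw [cc k hk p hp, if_pos hc, if_neg]
            rintro ⟨_, h⟩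
            omega
          rw [z, if_neg (by omega), Nat.cast_zero, zero_mul, add_zero]
        · obtain ⟨m, rfl⟩ : ∃ m, lam = m + 1 := ⟨lam - 1, by omega⟩
          have z : ∑ k ∈ range K, ∑ p ∈ iv (K - k) c,
              (if a k p ∧ cnt a (K + 1) k p ≤ m + 1 then (2 : ℝ) ^ k * f k p else 0) =
              ∑ k ∈ range K, ∑ p ∈ iv (K - k) c,
              (if a k p ∧ cnt a K k p ≤ m then (2 : ℝ) ^ k * f k p else 0) := by
            refine sum_congr rfl fun k hk => sum_congr rfl fun p hp => ?_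
            rw [cc k hk p hp, if_pos hc]
            by_cases h : a k p ∧ cnt a K k p ≤ m
            · rw [if_pos h, if_pos ⟨h.1, by omega⟩]
            · rw [if_neg h, if_neg fun h' => h ⟨h'.1, by omega⟩]
          rw [z, if_pos ⟨hc, by omega⟩]
          have h1 := ih hK' c m
          have h2 := hE0 c
          push_cast
          have h3 : (m : ℝ) * ((2 : ℝ) ^ K * f K c + E c) + (2 : ℝ) ^ K * f K c ≤
              ((m : ℝ) + 1) * ((2 : ℝ) ^ K * f K c + E c) := by linarith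
          exact (add_le_add_left h1 _).trans h3
      · have z : ∑ k ∈ range K, ∑ p ∈ iv (K - k) c,
            (if a k p ∧ cnt a (K + 1) k p ≤ lam then (2 : ℝ) ^ k * f k p else 0) =
            ∑ k ∈ range K, ∑ p ∈ iv (K - k) c,
            (if a k p ∧ cnt a K k p ≤ lam then (2 : ℝ) ^ k * f k p else 0) := by
          refine sum_congr rfl fun k hk => sum_congr rfl fun p hp => ?_
          rw [cc k hk p hp, if_neg hc, add_zero]
        rw [z, if_neg fun h => hc h.1, add_zero]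
        exact ih hK' c lam
    have split : ∑ k ∈ range (K + 1), ∑ p ∈ iv (K + 1 - k) q,
        (if a k p ∧ cnt a (K + 1) k p ≤ lam then (2 : ℝ) ^ k * f k p else 0) =
        ∑ k ∈ range (K + 1), ∑ p ∈ iv (K - k) (2 * q),
          (if a k p ∧ cnt a (K + 1) k p ≤ lam then (2 : ℝ) ^ k * f k p else 0) +
        ∑ k ∈ range (K + 1), ∑ p ∈ iv (K - k) (2 * q + 1),
          (if a k p ∧ cnt a (K + 1) k p ≤ lam then (2 : ℝ) ^ k * f k p else 0) := by
      rw [← sum_add_distrib]
      refine sum_congr rfl fun k hk => ?_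
      rw [mem_range] at hk
      have e : K + 1 - k = K - k + 1 := by omega
      rw [e, iv_succ_sum]
    rw [split]
    refine (add_le_add (one (2 * q)) (one (2 * q + 1))).trans (le_of_eq ?_)
    have hsum : ∑ i ∈ range (K + 1), (2 : ℝ) ^ (i + 1) * ∑ p ∈ iv (K + 1 - (i + 1)) q, γ (i + 1) p =
        E (2 * q) + E (2 * q + 1) + (2 : ℝ) ^ (K + 1) * γ (K + 1) q := by
      rw [sum_range_succ, hE, ← sum_add_distrib]
      congr 1
      · refine sum_congr rfl fun i hi => ?_
        rw [mem_range] at hi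
        have e : K + 1 - (i + 1) = K - (i + 1) + 1 := by omega
        rw [e, iv_succ_sum, mul_add]
      · have e : iv (K + 1 - (K + 1)) q = {q} := by
          rw [Nat.sub_self]
          ext x
          rw [mem_iv, mem_singleton, PL.ix_zero]
        rw [e, sum_singleton]
    rw [hsum]
    have hr := hrec K (by omega) q
    have h2 : (2 : ℝ) ^ (K + 1) = 2 * 2 ^ K := by rw [pow_succ]; ring
    rw [h2]
    linear_combination (lam : ℝ) * 2 ^ K * hr

variable {ι : Type*} [Fintype ι]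
variable {Mx : ℕ → ℤ → Matrix ι ι ℝ} {o x1 T M3 : ℤ} {n : ℕ} {s : ℕ → ℤ → ℤ → ℝ}

omit [Fintype ι] in
/-- the layers at and above `k` see the cell of the scale `k` only -/
theorem Rm_cell {k : ℕ} {x0 x0' : ℤ} (h : ix k x0 = ix k x0') (y : ℤ) :
    Rm Mx o x1 s n k x0 y = Rm Mx o x1 s n k x0' y := by
  unfold H841.Rm
  refine sum_congr rfl fun i hi => ?_
  have hi := (mem_Ico.1 hi).1
  have e0 : ix i x0 = ix i x0' := by
    rw [← Nat.add_sub_cancel' hi, ← ix_ix, ← ix_ix, h]
  have e1 : ix (i + 1) x0 = ix (i + 1) x0' := by rw [← ix_ix i 1, ← ix_ix i 1, e0]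
  have e2 : hs (i + 1) x0 = hs (i + 1) x0' := by
    unfold PL.hs
    rw [Nat.add_sub_cancel, e0]
  unfold H841.Lm
  rw [e1, e2]

/-- the square of the slot on the cell `p` of the scale `k` -/
def fS (Mx : ℕ → ℤ → Matrix ι ι ℝ) (o x1 : ℤ) (s : ℕ → ℤ → ℤ → ℝ) (n : ℕ) (y : ℤ) (w : ι → ℝ)
    (k : ℕ) (p : ℤ) : ℝ :=
  nsq (Rm Mx o x1 s n k (2 ^ k * p) y *ᵥ w)

/-- the square of the layer of the scale `i` on the cell `p` of the scale `i` -/
def gS (Mx : ℕ → ℤ → Matrix ι ι ℝ) (o x1 : ℤ) (s : ℕ → ℤ → ℤ → ℝ) (y : ℤ) (w : ι → ℝ)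
    (i : ℕ) (p : ℤ) : ℝ :=
  nsq ((s i p (ix i y) * hs i y) • (Mx i (ck o x1 y i - p) *ᵥ w))

theorem ix_base (k : ℕ) (p : ℤ) : ix k (2 ^ k * p) = p := by
  unfold ix
  rw [Int.mul_ediv_cancel_left _ (by positivity)]

theorem fS_eq {k : ℕ} {x0 p : ℤ} (h : ix k x0 = p) (y : ℤ) (w : ι → ℝ) :
    nsq (Rm Mx o x1 s n k x0 y *ᵥ w) = fS Mx o x1 s n y w k p := by
  unfold fS
  rw [Rm_cell (x0' := 2 ^ k * p) (by rw [h, ix_base]) y]

theorem fS_top (y : ℤ) (w : ι → ℝ) (p : ℤ) : fS Mx o x1 s n y w n p = 0 := by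
  unfold fS H841.Rm
  rw [Ico_self, sum_empty, zero_mulVec, H841.nsq_zero]

/-- the two halves of a cell -/
theorem fS_rec (y : ℤ) (w : ι → ℝ) {k : ℕ} (hk : k < n) (q : ℤ) :
    fS Mx o x1 s n y w k (2 * q) + fS Mx o x1 s n y w k (2 * q + 1) =
      2 * fS Mx o x1 s n y w (k + 1) q + 2 * gS Mx o x1 s y w (k + 1) q := by
  have key : ∀ c : ℤ, ix 1 c = q → Rm Mx o x1 s n k (2 ^ k * c) y *ᵥ w =
      (if c % 2 = 0 then (1 : ℝ) else -1) • ((s (k + 1) q (ix (k + 1) y) * hs (k + 1) y) •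
        (Mx (k + 1) (ck o x1 y (k + 1) - q) *ᵥ w)) +
      Rm Mx o x1 s n (k + 1) (2 ^ (k + 1) * q) y *ᵥ w := by
    intro c hc
    have e1 : ix (k + 1) (2 ^ k * c) = q := by rw [← ix_ix k 1, ix_base, hc]
    have e2 : Rm Mx o x1 s n k (2 ^ k * c) y =
        Lm Mx o x1 s (k + 1) (2 ^ k * c) y + Rm Mx o x1 s n (k + 1) (2 ^ k * c) y := by
      unfold H841.Rm
      rw [sum_eq_sum_Ico_succ_bot hk]
    rw [e2, add_mulVec, Rm_cell (x0' := 2 ^ (k + 1) * q) (by rw [e1, ix_base]) y]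
    congr 1
    unfold H841.Lm
    rw [e1, smul_mulVec, smul_smul]
    congr 1
    have e3 : hs (k + 1) (2 ^ k * c) = if c % 2 = 0 then (1 : ℝ) else -1 := by
      unfold PL.hs
      rw [Nat.add_sub_cancel, ix_base]
    rw [e3]
    ring
  have i0 : ix 1 (2 * q) = q := by unfold ix; omega
  have i1 : ix 1 (2 * q + 1) = q := by unfold ix; omega
  unfold fS gS
  rw [key (2 * q) i0, key (2 * q + 1) i1, if_pos (by omega), if_neg (by omega), one_smul,
    neg_one_smul, neg_add_eq_sub, H43.nsq_add, H43.nsq_sub, dotProduct_comm]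
  ring

/-- the energies of the layers over the cells of `x₀` -/
theorem gS_sum (hs1 : ∀ k a b, |s k a b| ≤ 1) (ho : o = 1 ∨ o = -1) {y : ℤ} (hy : M3 = ix n y)
    (w : ι → ℝ) {i : ℕ} (hi : i ≤ n) :
    (2 : ℝ) ^ i * ∑ p ∈ iv (n - i) T, gS Mx o x1 s y w i p ≤ En Mx n T x1 M3 i w := by
  have h := wt_Nn (Mx := Mx) (T := T) (x1 := x1) (M3 := M3) (n := n) ho
    (W := fun _ => (1 : ℝ)) (e := 1) (k := 0)
    (fun _ => zero_le_one) (fun j => by rw [sum_const, card_iv]; simp) hi (p := y)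
    (by rw [hy]; omega) (by rw [hy]; omega) w
  rw [Nat.zero_sub, pow_zero, mul_one, one_mul] at h
  refine le_trans ?_ h
  simp only [one_mul]
  rw [← iv_iv hi, mul_sum]
  refine sum_le_sum fun p _ => ?_
  have e : ∑ x0 ∈ iv i p, Nn Mx o x1 i x0 y w = (2 : ℝ) ^ i * nsq (Mx i (ck o x1 y i - p) *ᵥ w) := by
    have : ∀ x0 ∈ iv i p, Nn Mx o x1 i x0 y w = nsq (Mx i (ck o x1 y i - p) *ᵥ w) := by
      intro x0 hx
      rw [mem_iv] at hx
      unfold H841.Nn
      rw [hx]
    rw [sum_congr rfl this, sum_const, card_iv, nsmul_eq_mul]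
    push_cast
    rfl
  rw [e]
  refine mul_le_mul_of_nonneg_left ?_ (by positivity)
  unfold gS
  rw [H841.nsq_smul, mul_pow, sq (hs i y), PL.hs_mul_self, mul_one]
  have h2 : s i p (ix i y) ^ 2 ≤ 1 := by
    rw [← sq_abs]
    exact pow_le_one₀ (abs_nonneg _) (hs1 _ _ _)
  exact (mul_le_mul_of_nonneg_right h2 (nsq_nonneg _)).trans (le_of_eq (one_mul _))

/-- **The slot at the affected times with at most `lam` affected scales at and above.** -/
theorem stop_num (hs1 : ∀ k a b, |s k a b| ≤ 1) (ho : o = 1 ∨ o = -1) {e : ℝ} (W : ℕ → ℤ → ℝ)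
    (hW0 : ∀ k x, 0 ≤ W k x) (hW : ∀ k ≤ n, ∀ j, ∑ x ∈ iv k j, W k x ≤ e * 2 ^ k)
    (a : ℕ → ℤ → Prop) (y : ℤ) (w : ι → ℝ) (hy : M3 = ix n y) (lam : ℕ) :
    ∑ k ∈ range n, ∑ x0 ∈ iv n T, (if a k (ix k x0) ∧ cnt a n k (ix k x0) ≤ lam then
      W k x0 * nsq (Rm Mx o x1 s n k x0 y *ᵥ w) else 0) ≤
      lam * (e * ∑ i ∈ range n, En Mx n T x1 M3 (i + 1) w) := by
  have he : 0 ≤ e := by
    have h1 := (sum_nonneg fun x _ => hW0 0 x).trans (hW 0 (Nat.zero_le _) 0)
    rw [pow_zero, mul_one] at h1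
    exact h1
  have h1 : ∀ k ∈ range n, ∑ x0 ∈ iv n T, (if a k (ix k x0) ∧ cnt a n k (ix k x0) ≤ lam then
      W k x0 * nsq (Rm Mx o x1 s n k x0 y *ᵥ w) else 0) ≤
      e * ∑ p ∈ iv (n - k) T, (if a k p ∧ cnt a n k p ≤ lam then
        (2 : ℝ) ^ k * fS Mx o x1 s n y w k p else 0) := by
    intro k hk
    rw [mem_range] at hk
    rw [← iv_iv hk.le, mul_sum]
    refine sum_le_sum fun p _ => ?_
    have h2 : ∑ x0 ∈ iv k p, (if a k (ix k x0) ∧ cnt a n k (ix k x0) ≤ lam then
        W k x0 * nsq (Rm Mx o x1 s n k x0 y *ᵥ w) else 0) =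
        if a k p ∧ cnt a n k p ≤ lam then (∑ x0 ∈ iv k p, W k x0) * fS Mx o x1 s n y w k p
          else 0 := by
      split_ifs with hc
      · rw [sum_mul]
        refine sum_congr rfl fun x0 hx => ?_
        rw [mem_iv] at hx
        rw [hx, if_pos hc, fS_eq hx]
      · refine sum_eq_zero fun x0 hx => ?_
        rw [mem_iv] at hx
        rw [hx, if_neg hc]
    rw [h2]
    split_ifs with hc
    · rw [← mul_assoc]
      exact mul_le_mul_of_nonneg_right (hW k hk.le p) (nsq_nonneg _)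
    · rw [mul_zero]
  refine (sum_le_sum h1).trans ?_
  rw [← mul_sum, ← mul_assoc, mul_comm (lam : ℝ) e, mul_assoc]
  refine mul_le_mul_of_nonneg_left ?_ he
  refine (tree_cnt a (fS Mx o x1 s n y w) (gS Mx o x1 s y w) (fun _ _ => nsq_nonneg _)
    (fun _ _ => nsq_nonneg _) n (fun K hK q => fS_rec y w hK q) n le_rfl T lam).trans ?_
  rw [fS_top, mul_zero, zero_add]
  refine mul_le_mul_of_nonneg_left (sum_le_sum fun i hi => ?_) (Nat.cast_nonneg _)
  rw [mem_range] at hi
  exact gS_sum hs1 ho hy w (by omega)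

end

end Vale.Agent.P141.H265
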